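import Vale.Agent.P237.Quant.TailData.N99.tailN99P1Part0
import Vale.Agent.P237.Quant.TailData.N99.tailN99P1Part1
import Vale.Agent.P237.Quant.TailData.N99.tailN99P1Part2
import Vale.Agent.P237.Quant.TailData.N99.tailN99P1Part3
import Vale.Agent.P237.Quant.TailData.N99.tailN99P1Part4
import Vale.Agent.P237.Quant.TailData.N99.tailN99P1Part5
import Vale.Agent.P237.Quant.TailData.N99.tailN99P1Part6

/-!
Tail calibration tailN99P1 in dimension 99. The check. Generated data, checked by the kernel.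
-/

set_option maxRecDepth 100000
set_option linter.all false

namespace Vale.Agent.P237.Quant.TailData

open TailCert


/-- The calibration. -/
noncomputable def tailN99P1 : Cfg :=
  tailN99P1Base.withIvals (List.flatten [tailN99P1L0, tailN99P1L1, tailN99P1L2, tailN99P1L3, tailN99P1L4, tailN99P1L5, tailN99P1L6, tailN99P1L7, tailN99P1L8, tailN99P1L9, tailN99P1L10, tailN99P1L11, tailN99P1L12, tailN99P1L13, tailN99P1L14, tailN99P1L15, tailN99P1L16, tailN99P1L17, tailN99P1L18, tailN99P1L19, tailN99P1L20, tailN99P1L21, tailN99P1L22, tailN99P1L23, tailN99P1L24, tailN99P1L25, tailN99P1L26])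

theorem tailN99P1_parts : [tailN99P1L0, tailN99P1L1, tailN99P1L2, tailN99P1L3, tailN99P1L4, tailN99P1L5, tailN99P1L6, tailN99P1L7, tailN99P1L8, tailN99P1L9, tailN99P1L10, tailN99P1L11, tailN99P1L12, tailN99P1L13, tailN99P1L14, tailN99P1L15, tailN99P1L16, tailN99P1L17, tailN99P1L18, tailN99P1L19, tailN99P1L20, tailN99P1L21, tailN99P1L22, tailN99P1L23, tailN99P1L24, tailN99P1L25, tailN99P1L26].Forall fun l => tailN99P1Base.partUsed tailN99P1Used l = true := by
  simp only [List.forall_cons, List.Forall]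
  exact ⟨tailN99P1L0_ok, tailN99P1L1_ok, tailN99P1L2_ok, tailN99P1L3_ok, tailN99P1L4_ok, tailN99P1L5_ok, tailN99P1L6_ok, tailN99P1L7_ok, tailN99P1L8_ok, tailN99P1L9_ok, tailN99P1L10_ok, tailN99P1L11_ok, tailN99P1L12_ok, tailN99P1L13_ok, tailN99P1L14_ok, tailN99P1L15_ok, tailN99P1L16_ok, tailN99P1L17_ok, tailN99P1L18_ok, tailN99P1L19_ok, tailN99P1L20_ok, tailN99P1L21_ok, tailN99P1L22_ok, tailN99P1L23_ok, tailN99P1L24_ok, tailN99P1L25_ok, tailN99P1L26_ok⟩

theorem tailN99P1_check : tailN99P1.check = true :=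
  Cfg.check_of_parts (by decide +kernel) tailN99P1_parts

end Vale.Agent.P237.Quant.TailData
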