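import Vale.Agent.P237.Quant.TailData.N99.tailN99P2Part0
import Vale.Agent.P237.Quant.TailData.N99.tailN99P2Part1
import Vale.Agent.P237.Quant.TailData.N99.tailN99P2Part2
import Vale.Agent.P237.Quant.TailData.N99.tailN99P2Part3
import Vale.Agent.P237.Quant.TailData.N99.tailN99P2Part4
import Vale.Agent.P237.Quant.TailData.N99.tailN99P2Part5
import Vale.Agent.P237.Quant.TailData.N99.tailN99P2Part6
import Vale.Agent.P237.Quant.TailData.N99.tailN99P2Part7

/-!
Tail calibration tailN99P2 in dimension 99. The check. Generated data, checked by the kernel.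
-/

set_option maxRecDepth 100000
set_option linter.all false

namespace Vale.Agent.P237.Quant.TailData

open TailCert


/-- The calibration. -/
noncomputable def tailN99P2 : Cfg :=
  tailN99P2Base.withIvals (List.flatten [tailN99P2L0, tailN99P2L1, tailN99P2L2, tailN99P2L3, tailN99P2L4, tailN99P2L5, tailN99P2L6, tailN99P2L7, tailN99P2L8, tailN99P2L9, tailN99P2L10, tailN99P2L11, tailN99P2L12, tailN99P2L13, tailN99P2L14, tailN99P2L15, tailN99P2L16, tailN99P2L17, tailN99P2L18, tailN99P2L19, tailN99P2L20, tailN99P2L21, tailN99P2L22, tailN99P2L23, tailN99P2L24, tailN99P2L25, tailN99P2L26, tailN99P2L27, tailN99P2L28, tailN99P2L29])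

theorem tailN99P2_parts : [tailN99P2L0, tailN99P2L1, tailN99P2L2, tailN99P2L3, tailN99P2L4, tailN99P2L5, tailN99P2L6, tailN99P2L7, tailN99P2L8, tailN99P2L9, tailN99P2L10, tailN99P2L11, tailN99P2L12, tailN99P2L13, tailN99P2L14, tailN99P2L15, tailN99P2L16, tailN99P2L17, tailN99P2L18, tailN99P2L19, tailN99P2L20, tailN99P2L21, tailN99P2L22, tailN99P2L23, tailN99P2L24, tailN99P2L25, tailN99P2L26, tailN99P2L27, tailN99P2L28, tailN99P2L29].Forall fun l => tailN99P2Base.partUsed tailN99P2Used l = true := by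
  simp only [List.forall_cons, List.Forall]
  exact ⟨tailN99P2L0_ok, tailN99P2L1_ok, tailN99P2L2_ok, tailN99P2L3_ok, tailN99P2L4_ok, tailN99P2L5_ok, tailN99P2L6_ok, tailN99P2L7_ok, tailN99P2L8_ok, tailN99P2L9_ok, tailN99P2L10_ok, tailN99P2L11_ok, tailN99P2L12_ok, tailN99P2L13_ok, tailN99P2L14_ok, tailN99P2L15_ok, tailN99P2L16_ok, tailN99P2L17_ok, tailN99P2L18_ok, tailN99P2L19_ok, tailN99P2L20_ok, tailN99P2L21_ok, tailN99P2L22_ok, tailN99P2L23_ok, tailN99P2L24_ok, tailN99P2L25_ok, tailN99P2L26_ok, tailN99P2L27_ok, tailN99P2L28_ok, tailN99P2L29_ok⟩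

theorem tailN99P2_check : tailN99P2.check = true :=
  Cfg.check_of_parts (by decide +kernel) tailN99P2_parts

end Vale.Agent.P237.Quant.TailData
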